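import Vale.Agent.P063.Defs

/-!
# P063 : skeleton (statements of the modules)
-/

namespace P063.Skel

open Finset Real

section

variable {E : Type} [Fintype E] [DecidableEq E] {p : ℝ}

/-! ## Module A (TwoPt.lean) -/

theorem two_point_sum (h0 : 0 < p) (h1 : p < 1) {ι : Type} (s : Finset ι) (a b : ι → ℝ) :
    negMulLog (∑ i ∈ s, (a i ^ 2 + b i ^ 2)) ≤
      p * negMulLog (∑ i ∈ s, (a i + b i * ph p true) ^ 2) +
        (1 - p) * negMulLog (∑ i ∈ s, (a i + b i * ph p false) ^ 2) +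
      cp p * ∑ i ∈ s, b i ^ 2 := by
  sorry

theorem two_point_conc (h0 : 0 < p) (h1 : p < 1) {u v : ℝ} (hu : 0 ≤ u) (hv : 0 ≤ v) :
    p * negMulLog u + (1 - p) * negMulLog v ≤ negMulLog (p * u + (1 - p) * v) := by
  sorry

/-! ## Module B (Cube.lean) -/

theorem Ex_one : Ex p (fun _ : E → Bool => 1) = 1 := by
  sorry

theorem Ex_avg (e : E) (h : (E → Bool) → ℝ) :
    Ex p h = Ex p fun x => p * h (Function.update x e true) +
      (1 - p) * h (Function.update x e false) := by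
  sorry

theorem inversion (h0 : 0 < p) (h1 : p < 1) (f : (E → Bool) → ℝ) (x : E → Bool) :
    f x = ∑ S, co p f S * phS p S x := by
  sorry

theorem parseval (h0 : 0 < p) (h1 : p < 1) (f : (E → Bool) → ℝ) :
    ∑ S, co p f S ^ 2 = Ex p fun x => f x ^ 2 := by
  sorry

theorem Ex_G_sq (h0 : 0 < p) (h1 : p < 1) (c : Finset E → ℝ) (J T : Finset E) :
    Ex p (fun x => G p c J T x ^ 2) = ∑ S with S ∩ J = T, c S ^ 2 := by
  sorry

/-- the total influence -/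
theorem infl_co (h0 : 0 < p) (h1 : p < 1) {f : (E → Bool) → ℝ} (hf : ∀ x, f x = 0 ∨ f x = 1) :
    infl (co p f) univ = p * (1 - p) * ∑ e, piv p f e := by
  sorry

/-! ## Module C (Split.lean) -/

theorem G_split {c : Finset E → ℝ} {J T : Finset E} {e : E} (he : e ∈ J) (hT : T ⊆ J.erase e)
    (x : E → Bool) :
    G p c (J.erase e) T x = G p c J T x + G p c J (insert e T) x * ph p (x e) := by
  sorry

theorem G_update {c : Finset E → ℝ} {J T : Finset E} {e : E} (he : e ∈ J) (x : E → Bool)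
    (b : Bool) : G p c J T (Function.update x e b) = G p c J T x := by
  sorry

theorem Q_avg (h0 : 0 < p) (h1 : p < 1) {c : Finset E → ℝ} {J K T : Finset E} {e : E}
    (he : e ∈ J) (heK : e ∉ K) (hK : K ⊆ J) (hT : T ⊆ K) (x : E → Bool) :
    p * Q p c (J.erase e) K T (Function.update x e true) +
      (1 - p) * Q p c (J.erase e) K T (Function.update x e false) = Q p c J K T x := by
  sorry

/-! ## Module D (MI.lean), uses A, B (Ex_avg, Ex_G_sq), C -/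

/-- mutual information between the Fourier part and the classical part -/
theorem MI (h0 : 0 < p) (h1 : p < 1) {c : Finset E → ℝ} {J K : Finset E} (hK : K ⊆ J) :
    Phi p c J K ≤ Phi p c K K + cp p * infl c (J \ K) := by
  sorry

theorem Phi_mono (h0 : 0 < p) (h1 : p < 1) {c : Finset E → ℝ} {J J' K : Finset E} (hK : K ⊆ J')
    (hJ : J' ⊆ J) : Phi p c J' K ≤ Phi p c J K := by
  sorry

/-! ## Module F (Ent.lean), halving uses D -/

/-- subadditivity of the entropy -/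
theorem submod {K K' : Finset E} (hd : Disjoint K K') (q : Finset E → ℝ) (hq : ∀ T, 0 ≤ q T) :
    ∑ T ∈ (K ∪ K').powerset, negMulLog (q T) + negMulLog (∑ T ∈ (K ∪ K').powerset, q T) ≤
      ∑ T ∈ K.powerset, negMulLog (∑ T' ∈ K'.powerset, q (T ∪ T')) +
        ∑ T' ∈ K'.powerset, negMulLog (∑ T ∈ K.powerset, q (T ∪ T')) := by
  sorry

theorem halving (h0 : 0 < p) (h1 : p < 1) {c : Finset E → ℝ} {K K' : Finset E}
    (hd : Disjoint K K') :
    psi p c (K ∪ K') ≤ psi p c K + psi p c K' + cp p * infl c (K ∪ K') := by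
  sorry

theorem levels (h0 : 0 < p) (h1 : p < 1) {c : Finset E → ℝ} (m : ℕ) (χ : E → ℕ) (J : Finset E)
    (hχ : ∀ e ∈ J, χ e < 2 ^ m) :
    psi p c J ≤ ∑ v ∈ range (2 ^ m), psi p c (J.filter fun e => χ e = v) +
      cp p * m * infl c J := by
  sorry

theorem top (h0 : 0 < p) (h1 : p < 1) {c : Finset E → ℝ} (J : Finset E) :
    ∑ T ∈ J.powerset, negMulLog (∑ S with S ∩ J = T, c S ^ 2) ≤
      psi p c J + 1 + cp p * infl c univ := by
  sorry

/-! ## Module H (Fine.lean), uses B -/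

theorem fine (h0 : 0 < p) (h1 : p < 1) {c : Finset E → ℝ} (J : Finset E)
    (hQ : ∀ x, Q p c J ∅ ∅ x ≤ 1) {η R : ℝ} (hη : 0 < η) (hη' : η ≤ 1 / 3) (hR : 2 ≤ R)
    (hER : (Fintype.card E : ℝ) ≤ R) :
    psi p c J ≤ (1 + 2 * log (1 / η)) * infl c J +
      2 * η * log (1 / η) * ∑ e ∈ J, Ex p (fun x => |G p c J {e} x|) +
      2 * log R * ∑ S, ((S ∩ J).card : ℝ) * (((S ∩ J).card : ℝ) - 1) * c S ^ 2 + 3 / R ^ 2 := by
  sorry

/-! ## Module I (Noise.lean) -/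

theorem noise_Q (h0 : 0 < p) (h1 : p < 1) {f : (E → Bool) → ℝ} (hf : ∀ x, f x = 0 ∨ f x = 1)
    {ρ : ℝ} (hρ : 0 ≤ ρ) (hρ' : ρ ≤ 1) (J : Finset E) (x : E → Bool) :
    Q p (fun S => ρ ^ S.card * co p f S) J ∅ ∅ x ≤ 1 := by
  sorry

theorem noise_G (h0 : 0 < p) (h1 : p < 1) {f : (E → Bool) → ℝ} {ρ : ℝ} (hρ : 0 ≤ ρ)
    (hρ' : ρ ≤ 1) {J : Finset E} {e : E} (he : e ∈ J) :
    Ex p (fun x => |G p (fun S => ρ ^ S.card * co p f S) J {e} x|) ≤ piv p f e := by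
  sorry

/-! ## Module K (Color.lean) -/

theorem avg_low {R M : ℕ} (hM : M ≤ R) (hR : 0 < R) (S : Finset E) :
    avg (fun χ : E → Fin R => ((S ∩ low M χ).card : ℝ)) = S.card * (M / R) := by
  sorry

theorem avg_cls {R v : ℕ} (hv : v < R) (S : Finset E) :
    avg (fun χ : E → Fin R => ((S ∩ cls v χ).card : ℝ)) = S.card / R := by
  sorry

theorem avg_cls_two {R v : ℕ} (hv : v < R) (S : Finset E) :
    avg (fun χ : E → Fin R => ((S ∩ cls v χ).card : ℝ) * (((S ∩ cls v χ).card : ℝ) - 1)) =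
      S.card * (S.card - 1) / (R : ℝ) ^ 2 := by
  sorry

/-- the probability that a set of size `D` contains an element of color less than `M` -/
theorem avg_touch {R M : ℕ} (hM : M ≤ R) (hR : 0 < R) (D : Finset E) :
    min 1 (D.card * (M / R : ℝ)) / 2 ≤
      avg (fun χ : E → Fin R => if (D ∩ low M χ).Nonempty then (1 : ℝ) else 0) := by
  sorry

end

/-! ## Module L (Sym.lean) -/

theorem sym_bound {n r : ℕ} (w : Finset (Edge n r) → ℝ) (hw : ∀ S, 0 ≤ w S)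
    (hinv : ∀ (τ : Equiv.Perm (Fin n)) (S : Finset (Edge n r)),
      w (S.map (act τ).toEmbedding) = w S) (T : Finset (Edge n r)) :
    ∑ S with T ⊆ S, w S ≤ ∑ S, w S * (((VS T).card * (VS S).card : ℝ) / n) ^ (VS T).card := by
  sorry

theorem co_sym {n r : ℕ} {p : ℝ} {f : (Edge n r → Bool) → ℝ}
    (hf : ∀ (τ : Equiv.Perm (Fin n)) (x : Edge n r → Bool), f (x ∘ act τ) = f x)
    (τ : Equiv.Perm (Fin n)) (S : Finset (Edge n r)) :
    co p f (S.map (act τ).toEmbedding) = co p f S := by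
  sorry

/-! ## Module N (Verts.lean), uses K (avg_touch) -/

theorem verts {n r : ℕ} (hr : 1 ≤ r) (S : Finset (Edge n r)) {A M : ℕ} (hA : 0 < A)
    (hM : 0 < M) :
    (1 / 4 : ℝ) * min ((S.card : ℝ) ^ (1 / r : ℝ)) (S.card / A) ≤
      avg (fun χ : Edge n r → Fin (A * M) => ((VS (S ∩ low M χ)).card : ℝ)) := by
  sorry

/-! ## Module P (Lower.lean), uses L, N -/

/-- the spectral law has a large entropy -/
theorem lower {n r : ℕ} (hr : 2 ≤ r) {p : ℝ} (h0 : 0 < p) (h1 : p < 1)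
    {f : (Edge n r → Bool) → ℝ} (hf : ∀ x, f x = 0 ∨ f x = 1)
    (hs : ∀ (τ : Equiv.Perm (Fin n)) (x : Edge n r → Bool), f (x ∘ act τ) = f x)
    {d : ℝ} (hd : 1 ≤ d) (hdn : (r * d) ^ 6 ≤ n) {A M : ℕ} (hA : 0 < A) (hM : 0 < M) :
    log n / 64 * ∑ S with ((S.card : ℝ) ≤ d), co p f S ^ 2 *
        min ((S.card : ℝ) ^ (1 / r : ℝ)) (S.card / A) ≤
      avg (fun χ : Edge n r → Fin (A * M) => ∑ T ∈ (low M χ).powerset, negMulLog
        (∑ S with S ∩ low M χ = T, (exp (-1 / d) ^ S.card * co p f S) ^ 2)) := by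
  sorry

/-! ## Module R (Upper.lean), uses F, H, I, K -/

theorem upper {n r : ℕ} (hr : 2 ≤ r) (hn : 2 ≤ n) {p : ℝ} (h0 : 0 < p) (h1 : p < 1)
    {f : (Edge n r → Bool) → ℝ} (hf : ∀ x, f x = 0 ∨ f x = 1)
    {d : ℝ} (hd : 1 ≤ d) (hdL : d ≤ log n ^ 2) (hpiv : ∑ e, piv p f e ≤ log n ^ 2)
    (hL : 3 ≤ log n) {m : ℕ} (hm : 10 * log (log n) ≤ m) (hm' : 2 * r * log n ^ 5 ≤ 2 ^ m)
    (hm2 : (2 : ℝ) ^ m * 3 ≤ n) :
    avg (fun χ : Edge n r → Fin (m * 2 ^ m) => ∑ T ∈ (low (2 ^ m) χ).powerset, negMulLog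
        (∑ S with S ∩ low (2 ^ m) χ = T, (exp (-1 / d) ^ S.card * co p f S) ^ 2)) ≤
      (2 * cp p + 2) * (∑ S with ((S.card : ℝ) ≤ d), S.card * co p f S ^ 2 +
        d * ∑ S with S ≠ ∅, co p f S ^ 2) + 5 := by
  sorry

/-! ## Module S (Scale.lean) : real analysis -/

theorem scale {ι : Type} [Fintype ι] (X : ι → ℕ) (w : ι → ℝ) (hw : ∀ i, 0 ≤ w i) {r A : ℕ}
    (hr : 2 ≤ r) (hA : 0 < A) {v b b' : ℝ} (hv : ∑ i with 1 ≤ X i, w i = v) (hb : 0 < b)
    (hb' : 0 ≤ b') (J : ℕ)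
    (key : ∀ j ≤ J, ∑ i with (X i ≤ 2 ^ j), w i * min ((X i : ℝ) ^ (1 / r : ℝ)) (X i / A) ≤
      b * (∑ i with (X i ≤ 2 ^ j), X i * w i + 2 ^ j * v) + b')
    (h1 : b * ((2 : ℝ) ^ J) ^ (1 - 1 / r : ℝ) ≤ 1 / 100) (h2 : b * A * (J + 1) ≤ 1 / 100)
    (h3 : b' * (A + J + 1) ≤ v / 100) :
    ∑ i with (1 ≤ X i ∧ X i ≤ 2 ^ J), w i ≤ v / 2 := by
  sorry

/-! ## Module T (Russo.lean) -/

theorem russo {E : Type} [Fintype E] [DecidableEq E] {f : (E → Bool) → ℝ}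
    (hf : ∀ x y : E → Bool, x ≤ y → f x ≤ f y) (p : ℝ) :
    HasDerivAt (fun p => Ex p f) (∑ e, piv p f e) p := by
  sorry

end P063.Skel
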